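import Vale.Agent.P014Y.F.St
import Vale.Agent.P004F.Dp.Dpl

/-! # P014Y, block F, row DPL: the analytic side after the change of conductor -/

set_option linter.all false

open NumberField Polynomial
open scoped Classical

noncomputable section

namespace Vale.Agent.P014Y.F

open Vale.Agent.P022 Vale.Agent.P004K Vale.Agent.P014U
open Vale.Agent.P022K.G2 (Tv Nz)
open Vale.Agent.P022E.GW (Ov Fb)
open P004M.TE (Pt ga ga_mul ga_one)
open P004F.Qx (zf Fk op gE dep)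
open P004R.Sf (Ao Zo rs)
open P004F.Dp (Ab lp th Sq split lp_ga dep_ap rs_eq rs_sub vn ex_pi)

variable [Pp]

namespace Dp

variable {e : Crv} (b : Fld e)

theorem tv_iff {c : ℕ} {T : Finset GQ} : b.Tv c T ↔ Tv b.Γ (Hc b.j c) T :=
  ⟨fun h => ⟨h.1, fun g hg => (h.2 g hg).exists.imp fun r hr => ⟨hr.1, by simpa using inv_mem hr.2⟩,
    fun r hr r' hr' m => (h.2 r (h.1 r hr)).unique ⟨hr, by simpa using one_mem _⟩ ⟨hr', m⟩⟩,
  fun h => ⟨h.mem, fun g hg => by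
    obtain ⟨r, hr, m⟩ := h.ex g hg
    exact ⟨r, ⟨hr, by simpa using inv_mem m⟩, fun r' hr' =>
      (h.un r hr r' hr'.1 (by simpa [mul_assoc] using mul_mem m hr'.2)).symm⟩⟩⟩

/-- the depleted point -/
abbrev yd (c : ℕ) : Pt e.A e.B := dep e.N e.w e.a e.S b.φ (b.Y c)

theorem dep_ga {y : Pt e.A e.B} (h : Ab b.Γ y) {g : GQ} (hg : g ∈ b.Γ) :
    ga g (dep e.N e.w e.a e.S b.φ y) = dep e.N e.w e.a e.S b.φ (ga g y) := by
  rw [dep_ap, dep_ap, map_nsmul, lp_ga b.ch.mem y h g hg]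

section

variable (r1 : P004K.RC1) {c : ℕ} (c0 : 0 < c) (cp : c.Coprime (e.N * e.S.prod))
include r1 c0

theorem nz : Nz b.Γ (Hc b.j c) := fun g _ u hu => (r1 b.K b.j b.iq c c0).2.2.1.conj_mem u hu g

include cp

theorem ab : Ab b.Γ (b.Y c) := fun g hg h hh => by
  rw [← ga_mul, ← ga_mul, show g * h = h * g * (g⁻¹ * h⁻¹ * g⁻¹⁻¹ * h⁻¹⁻¹) by group,
    ga_mul (h * g), b.fx c c0 cp.coprime_mul_right_right _
      ((r1 b.K b.j b.iq c c0).2.2.2.1 _ (inv_mem hg) _ (inv_mem hh))]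

theorem yd_fx : ∀ u ∈ Hc b.j c, ga u (yd b c) = yd b c := fun u hu => by
  rw [dep_ga b (ab b r1 c0 cp) hu.1, b.fx c c0 cp.coprime_mul_right_right u hu]

end

variable {b} {R : Type} [CommRing R] {F : AddSubgroup (Pt e.A e.B)} {lam : Pt e.A e.B → R}
  {ω : GQ → R} (r1 : P004K.RC1) (r2 : P004K.RC2) (r3 : P004K.RC3)
  (o : P004F.Dp.Ok b.Γ F lam ω)
  (hF : ∀ c, 0 < c → c.Coprime (e.N * e.S.prod) → yd b c ∈ F)
include r1 r2 r3 o hF

theorem step {c l : ℕ} {ψ : GQ} {T T' : Finset GQ} (c0 : 0 < c) (cp : c.Coprime (e.N * e.S.prod))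
    (s : Sq b.j l ψ) (hl : ¬ l ∣ c) (hl' : ¬ l ∣ e.N * e.S.prod) (h1 : ∀ u ∈ Hc b.j c, ω u = 1)
    (hT : Tv b.Γ (Hc b.j c) T) (hT' : Tv b.Γ (Hc b.j (c * l)) T') :
    ω ψ * th lam ω T' (yd b (c * l)) = (e.a l * ω ψ - 1 - ω ψ ^ 2) * th lam ω T (yd b c) := by
  obtain ⟨m, P, L, ov, fb, co, mu⟩ := s
  have n := H20.norm_of_frob_mem b.iq.two ov.1 b.j ov.2.1 ov.2.2 fb m
  have l1 := ov.1.one_lt
  have t1 := (H20.below_prime b.j ov.2.1).ne_top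
  have t2 : L ≠ ⊤ := fun h => by
    rw [h, Ideal.mul_top] at mu
    rw [mu, H20.absNorm_span_l b.iq.two] at n
    nlinarith
  have cl := (Nat.Prime.coprime_iff_not_dvd ov.1).2 hl
  have cop : ∀ I : Ideal (𝓞 b.K), (l : 𝓞 b.K) ∈ I → Cop c I := fun I h =>
    ⟨H20.ne_bot_of_mem ov.1 h, by
      obtain ⟨x, y, k⟩ := Nat.Coprime.cast (R := 𝓞 b.K) cl
      rw [Ideal.eq_top_iff_one, ← k]
      exact add_mem (Ideal.mem_sup_left (I.mul_mem_left _ h))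
        (Ideal.mem_sup_right (Ideal.mul_mem_left _ _ (Ideal.mem_span_singleton_self _)))⟩
  have k1 := cop _ (H20.l_mem_below b.j ov.2.2)
  have k2 := cop L (Ideal.mul_le_right (I := below b.j P) (mu ▸ Ideal.mem_span_singleton_self _))
  obtain ⟨a1, -, a3, -, a5, -, a7⟩ := r2 b.K b.j b.iq c c0
  obtain ⟨g, hg⟩ := a1 L k2
  have hψ : Ar b.j c (below b.j P) ψ := by
    simpa using a7 P ov.2.1 (fun h => ov.1.ne_zero (by simpa [h] using ov.2.2)) (fun h => hl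
      (Int.natCast_dvd_natCast.1 (H20.dvd_of_mem ov.1 ov.2.1 ov.2.2 (by simpa using h)))) ψ m 1
      (by rw [n, pow_one]; exact fb)
  have e1 : ω ψ * ω g = 1 := by
    rw [← o.mul ψ m g hg.1]
    exact h1 _ ((a5 _ _ (cop _ (mu ▸ Ideal.mem_span_singleton_self _))
      (a3 _ _ _ _ k1 k2 hψ hg)).2 ⟨l, 0, by simpa using mu⟩)
  obtain ⟨t, -, ht⟩ := (r3 b.K b.j b.iq b.upm).2 l (l - 1)
    ⟨ov.1, Or.inr ⟨⟨_, L, co, t1, t2, mu⟩, by omega⟩⟩ P ov.2.1 ov.2.2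
  have gn := ht c c0 hl
  have c1 : 0 < c * l := by positivity
  have cp' : (c * l).Coprime (e.N * e.S.prod) :=
    cp.mul_left ((Nat.Prime.coprime_iff_not_dvd ov.1).2 hl')
  have sp := congrArg (dep e.N e.w e.a e.S b.φ) (b.spl c l (l - 1) t c0 cp.coprime_mul_right_right
    ov.1 (fun h => ((Nat.Prime.dvd_mul ov.1).1 h).elim hl fun h => hl' (h.mul_right _)) gn _ L ψ g
    co t1 t2 mu hψ hg)
  rw [map_sum, map_sub, map_sub, map_zsmul, ← dep_ga b (ab b r1 c0 cp) m,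
    ← dep_ga b (ab b r1 c0 cp) hg.1, Finset.sum_congr rfl fun i _ =>
      (dep_ga b (ab b r1 c1 cp') (pow_mem gn.1.1 i)).symm] at sp
  have z := hF c c0 cp
  have e2 := o.th_ga hT (nz b r1 c0) h1 (yd_fx b r1 c0 cp) m
  have e3 := o.th_ga hT (nz b r1 c0) h1 (yd_fx b r1 c0 cp) hg.1
  rw [o.th_tr hT hT' ((r1 b.K b.j b.iq c c0).2.2.2.2.2 l ov.1.pos) inf_le_left h1 (hF _ c1 cp')
    (yd_fx b r1 c1 cp') (by omega : 0 < l - 1) gn.1 gn.2.1 gn.2.2, sp,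
    o.th_sub hT (sub_mem (zsmul_mem z _) (o.st _ z _ m)) (o.st _ z _ hg.1),
    o.th_sub hT (zsmul_mem z _) (o.st _ z _ m), o.th_z hT z]
  linear_combination -e2 - ω ψ ^ 2 * e3 + ω ψ * th lam ω T (ga g (yd b c)) * e1

omit r1 r2 r3 o hF

theorem ndvd (e : Crv) {p : ℕ} (hp : p.Prime) (h : p ∉ e.S) : ¬ p ∣ e.N * e.S.prod := fun d =>
  ((Nat.Prime.dvd_mul hp).1 d).elim (e.bad p hp h).1 fun d => by
  obtain ⟨q, m, d⟩ := (Prime.dvd_prod_iff hp.prime).1 d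
  exact h ((Nat.prime_dvd_prime_iff_eq hp (e.ov q m).1).1 d ▸ m)

include r1 r2 r3 o hF in
theorem key {m n c q v : ℕ} {χ : GQ → ℕ} (tw : b.Tw m n c χ) (xq : b.Xq c χ q v)
    (p3 : (pp : R) = 0) (h1 : ∀ u ∈ Hc b.j c, ω u = 1) {T' : Finset GQ}
    (hT' : Tv b.Γ (Hc b.j (c * q)) T')
    (z : yd b (c * q) ∈ F → th lam ω T' (yd b (c * q)) = 0) :
    ∃ T Q ψ, Tv b.Γ (Hc b.j c) T ∧ Ov q Q ∧ Fb q Q ψ ∧ yd b c ∈ F ∧
      (ω ψ - 1) ^ 2 * th lam ω T (yd b c) = 0 := by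
  have c0 : 0 < c := one_pos.trans tw.one
  have cp : c.Coprime (e.N * e.S.prod) := Nat.coprime_of_dvd fun p hp d =>
    ndvd e hp (tw.gp p (Nat.mem_primeFactors.2 ⟨hp, d, c0.ne'⟩)).out
  have qS : q ∉ e.S := fun h => xq.out (Finset.mem_union_left _ (List.mem_toFinset.2 h))
  have qc : ¬ q ∣ c := fun h =>
    xq.out (Finset.mem_union_right _ (Nat.mem_primeFactors.2 ⟨xq.pr, h, c0.ne'⟩))
  obtain ⟨T, hT⟩ := P022K.G2.ex_tv (Γ := b.Γ) (U := Hc b.j c) fun h => hT'.ne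
    (Nat.eq_zero_of_zero_dvd (h ▸ Subgroup.relIndex_dvd_of_le_left _
      ((r1 b.K b.j b.iq c c0).2.2.2.2.2 q xq.pr.pos)))
  obtain ⟨Q, hQ, mQ⟩ := H916.exists_prime xq.pr
  obtain ⟨ψ, fb⟩ := P022D.W.exists_phi xq.pr hQ mQ
  have ov : Ov q Q := ⟨xq.pr, hQ, mQ⟩
  have dq := P022D.W.phi_mem xq.pr hQ fb
  have e1 := step r1 r2 r3 o hF c0 cp (split b.iq b.th b.cc ov fb (xq.spl Q ov dq) fun d =>
    ((Nat.Prime.dvd_mul xq.pr).1 d).elim (fun d => qS ((Nat.prime_dvd_prime_iff_eq xq.pr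
      Nat.prime_two).1 (xq.pr.dvd_of_dvd_pow (show q ∣ 2 ^ 2 from d)) ▸ e.two)) xq.cop)
    qc (ndvd e xq.pr qS) h1 hT hT'
  have aq : ((e.a q : ℤ) : R) = 2 := by
    have k := congrArg PadicInt.toZMod ((e.bad q xq.pr qS).2.2 ψ ⟨Q, hQ, mQ, fb⟩)
    rw [AddMonoidHom.map_trace, show (X4M.TE.mt (hq e.par.disc) ψ).map _ = 1 from
      xq.res Q ov ψ dq, map_intCast, Matrix.trace_one] at k
    obtain ⟨s, hs⟩ := (ZMod.intCast_eq_intCast_iff_dvd_sub 2 (e.a q) pp).1 (by simpa using k)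
    rw [eq_add_of_sub_eq hs]; push_cast; rw [p3, zero_mul, zero_add]
  rw [z (hF _ (mul_pos c0 xq.pr.pos)
    (cp.mul_left ((Nat.Prime.coprime_iff_not_dvd xq.pr).2 (ndvd e xq.pr qS)))), mul_zero, aq] at e1
  exact ⟨T, Q, ψ, hT, ov, fb, hF c c0 cp, by linear_combination e1⟩

theorem pow_pp {k : Type} [CommRing k] (h : (pp : k) = 0) (y : k) (n : ℕ) :
    (1 + y) ^ pp ^ n = 1 + y ^ pp ^ n := by
  obtain ⟨r, hr⟩ := exists_add_pow_prime_pow_eq Pp.prime 1 y n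
  rw [hr, h]; simp

theorem fin {k R : Type} [CommRing k] [CommRing R] (π : k[X] →+* R) {l v s : ℕ}
    (π0 : ∀ f, π f = 0 ↔ X ^ (l + 1 + 2 * pp ^ v) ∣ f) (p2 : (pp : k[X]) = 0) (hs : ¬ pp ∣ s)
    {f : k[X]} (h : (π (1 + X) ^ (pp ^ v * s) - 1) ^ 2 * π f = 0) : X ^ (l + 1) ∣ f := by
  obtain ⟨x, hx⟩ := sq_dvd_add_pow_sub_sub (X ^ pp ^ v : k[X]) 1 s
  obtain ⟨a, a', ha⟩ := Nat.Coprime.cast (R := k[X]) ((Nat.Prime.coprime_iff_not_dvd Pp.prime).2 hs)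
  have co : IsCoprime (X ^ pp ^ v : k[X]) ((s : k[X]) + X ^ pp ^ v * x) :=
    ⟨-(a' * x), a', by linear_combination ha - a * p2⟩
  rw [IsCoprime.pow_left_iff (pow_pos Pp.prime.pos v)] at co
  have e : (1 + X : k[X]) ^ (pp ^ v * s) - 1 = X ^ pp ^ v * ((s : k[X]) + X ^ pp ^ v * x) := by
    rw [pow_mul, pow_pp p2]
    simp only [one_pow] at hx
    linear_combination hx
  rw [← map_pow, ← map_one π, ← map_sub, ← map_pow, ← map_mul, π0, e, mul_pow, ← pow_mul, pow_add,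
    mul_comm 2, mul_comm, mul_assoc] at h
  obtain ⟨c, hc⟩ := h
  rw [mul_assoc] at hc
  exact IsCoprime.dvd_of_dvd_mul_left (co.pow (m := l + 1) (n := 2))
    ⟨c, (monic_X_pow _).isRegular.left hc⟩

end Dp

open Dp in
/-- **row DPL** -/
theorem dpl (r1 : P004K.RC1) (r2 : P004K.RC2) (r3 : P004K.RC3) (fg : P004F.Qx.FG) : DPL := by
  intro e b m n c χ q v l tw xq hl an T' hT'
  obtain ⟨-, hP, h2⟩ := e.ov pp e.pm
  have p0 : e.S.prod ≠ 0 := (List.prod_pos fun p m => (e.ov p m).1.pos).ne'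
  obtain ⟨f0, -, -, -, -, f1⟩ := fg e.A e.B e.par.disc _ hP fun h =>
    Pp.prime.ne_zero (by simpa [h] using h2)
  replace f1 := (f1 _ (pow_ne_zero 2 p0)).1
  let F : AddSubgroup (Pt e.A e.B) := AddSubgroup.ofSub
    {y | ∀ g ∈ b.Γ, Fk (e.P pp) (e.S.prod ^ 2) (ga g y)}
    ⟨0, fun g _ => by
      rw [map_zero]
      exact ⟨f0, by rw [show zf (0 : Pt e.A e.B) = 0 from rfl, zero_div]; exact (Ao _).zero_mem⟩⟩
    fun x hx y hy g hg => by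
      rw [← sub_eq_add_neg, map_sub]; exact (f1 _ _ (hx g hg) (hy g hg)).1
  have mF : ∀ y, y ∈ F ↔ ∀ g ∈ b.Γ, Fk (e.P pp) (e.S.prod ^ 2) (ga g y) := fun _ => Iff.rfl
  obtain ⟨R, _, π, π0⟩ := ex_pi (Ao (e.P pp) ⧸ Zo (e.P pp)) (l + 1 + 2 * pp ^ v)
  have p2 : (pp : (Ao (e.P pp) ⧸ Zo (e.P pp))[X]) = 0 := by
    rw [← map_natCast C, ← map_natCast (Ideal.Quotient.mk (Zo (e.P pp))),
      Ideal.Quotient.eq_zero_iff_mem.2, map_zero]
    exact ⟨1, pp, hP.one_notMem, h2, by simp⟩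
  have p3 := congrArg π p2
  rw [map_natCast, map_zero] at p3
  have w1 : π (1 + X) ^ pp ^ n = 1 := by
    rw [← map_pow, pow_pp p2, map_add, map_one, (π0 _).2 (pow_dvd_pow _ (by omega)), add_zero]
  have o : P004F.Dp.Ok b.Γ F (fun y => π (C (rs (e.P pp) (zf y / (e.S.prod ^ 2 : ℕ)))))
      fun g => π (1 + X) ^ χ g :=
    ⟨fun y hy g hg => (mF _).2 fun h hh => by rw [← ga_mul]; exact hy _ (mul_mem hh hg),
      fun y hy y' hy' => by
        have a := hy 1 (one_mem _)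
        have a' := hy' 1 (one_mem _)
        rw [ga_one] at a a'
        rw [rs_eq (f1 _ _ a a').1.2 ((Ao _).sub_mem a.2 a'.2) (f1 _ _ a a').2, rs_sub a.2 a'.2,
          map_sub, map_sub],
      fun g hg h hh => by rw [← pow_add, pow_eq_pow_of_modEq (tw.add g hg h hh) w1]⟩
  have hF : ∀ c, 0 < c → c.Coprime (e.N * e.S.prod) → yd b c ∈ F := fun c c0 cp g hg =>
    b.qx c c0 cp g hg pp e.pm
  by_contra! z
  rw [tv_iff] at hT'
  obtain ⟨T, Q, ψ, hT, ov, fb, mz, k⟩ := key r1 r2 r3 o hF tw xq p3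
    (fun u hu => by
      obtain ⟨k, hk⟩ := tw.ker u hu
      simp only [hk, pow_mul, w1, one_pow]) hT' fun h => by
      have := (π0 _).2 ((vn fun g hg => (h g (hT'.mem g hg)).2).1 fun i hi => z i (by omega))
      simpa only [P004F.Dp.th, map_sum, map_mul, map_pow] using this
  obtain ⟨⟨s, hs⟩, so⟩ := xq.val Q ov ψ fb
  obtain ⟨i, hi, ni⟩ := an T ((tv_iff b).2 hT)
  refine ni ((vn fun g hg => (mz g (hT.mem g hg)).2).2 (fin π π0 p2
    (fun k => so (by rw [hs, pow_succ]; exact Nat.mul_dvd_mul_left _ k)) ?_) i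
      (Nat.lt_succ_of_le hi))
  rw [← hs]
  simpa only [P004F.Dp.th, map_sum, map_mul, map_pow] using k

end Vale.Agent.P014Y.F
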